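import Crest.Agent.Lib.CycleRamsey.BCExcBridge

/-!
# The exceptional pattern E4: `(q, r) = (5, 4)`, one long ear, `k = 9` (helper31, row 54, S0075)

Homes `z, x₁, x₂, x₃, x₄`; for these `s = 3, 4` are excluded for all pairs, `s = 2` except
`(x₁, x₄)`, `s = 1` for the complement of a 5-cycle; exits form a system of distinct
representatives.
-/

set_option autoImplicit false
set_option linter.unusedSectionVars false
set_option linter.unusedVariables false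

namespace Crest.Agent.CycleRamsey

open SimpleGraph

variable {V : Type} [Fintype V] [DecidableEq V] {G : SimpleGraph V}
variable {Q : Finset V} {v : ℤ → V} {I : Finset V}

/-- The system of distinct representatives on a 5-cycle of possible sharings. -/
theorem sdr_five {Lz L2 L3 L4 L1 : Finset V} (hz : Lz.Nonempty) (h2 : 2 ≤ L2.card) (h3 : 2 ≤ L3.card)
    (h4 : 2 ≤ L4.card) (h1 : 2 ≤ L1.card)
    (d23 : ∀ x ∈ L2, x ∉ L3) (d21 : ∀ x ∈ L2, x ∉ L1) (d43 : ∀ x ∈ L4, x ∉ L3)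
    (dz4 : ∀ x ∈ Lz, x ∉ L4) (dz1 : ∀ x ∈ Lz, x ∉ L1) :
    ∃ uz ∈ Lz, ∃ u2 ∈ L2, ∃ u3 ∈ L3, ∃ u4 ∈ L4, ∃ u1 ∈ L1,
      uz ≠ u2 ∧ uz ≠ u3 ∧ uz ≠ u4 ∧ uz ≠ u1 ∧ u2 ≠ u3 ∧ u2 ≠ u4 ∧ u2 ≠ u1 ∧ u3 ≠ u4 ∧ u3 ≠ u1 ∧
        u4 ≠ u1 := by
  classical
  have hone : ∀ (L : Finset V) (a : V), 2 ≤ L.card → ∃ b ∈ L, b ≠ a := by
    intro L a hL
    exact Finset.exists_mem_ne (by omega) a
  obtain ⟨a, ha⟩ := hz
  have ha4 := dz4 a ha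
  have ha1 := dz1 a ha
  by_cases ha3 : a ∈ L3
  · -- then `a ∉ L2`; choose along `x₃, x₁, x₄, x₂`
    have ha2 : a ∉ L2 := fun h => d23 a h ha3
    obtain ⟨u3, hu3, hu3a⟩ := hone L3 a h3
    obtain ⟨u1, hu1, hu1a⟩ := hone L1 u3 h1
    obtain ⟨u4, hu4, hu4a⟩ := hone L4 u1 h4
    obtain ⟨u2, hu2, hu2a⟩ := hone L2 u4 h2
    refine ⟨a, ha, u2, hu2, u3, hu3, u4, hu4, u1, hu1, ?_, hu3a.symm, ?_, ?_, ?_, hu2a, ?_, ?_, hu1a.symm, hu4a⟩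
    · rintro rfl; exact ha2 hu2
    · rintro rfl; exact ha4 hu4
    · rintro rfl; exact ha1 hu1
    · exact fun h => d23 u2 hu2 (h ▸ hu3)
    · exact fun h => d21 u2 hu2 (h ▸ hu1)
    · exact fun h => d43 u4 hu4 (h ▸ hu3)
  · -- `a ∉ L3`; choose along `x₂, x₄, x₁, x₃`
    obtain ⟨u2, hu2, hu2a⟩ := hone L2 a h2
    obtain ⟨u4, hu4, hu4a⟩ := hone L4 u2 h4
    obtain ⟨u1, hu1, hu1a⟩ := hone L1 u4 h1
    obtain ⟨u3, hu3, hu3a⟩ := hone L3 u1 h3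
    refine ⟨a, ha, u2, hu2, u3, hu3, u4, hu4, u1, hu1, hu2a.symm, ?_, ?_, ?_, ?_, hu4a.symm, ?_, ?_, hu3a, hu1a.symm⟩
    · rintro rfl; exact ha3 hu3
    · rintro rfl; exact ha4 hu4
    · rintro rfl; exact ha1 hu1
    · exact fun h => d23 u2 hu2 (h ▸ hu3)
    · exact fun h => d21 u2 hu2 (h ▸ hu1)
    · exact fun h => d43 u4 hu4 (h ▸ hu3)

/-- The long ear pattern for `(q, r) = (5, 4)`. -/
def patE4 : List Bool := [true, true, true, true, true, false, false, false, false]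

/-- Labels. -/
def labE4 (i : ℕ) : ℕ := [0, 0, 0, 0, 1, 1, 2, 2, 0].getD i 0

theorem labCheckE4 : ∀ a < 9, ∀ b < 9, a ≠ b → labE4 a = labE4 b → hamCheck patE4 9 a b = true := by
  decide

theorem E4 (S : ExcSetup G Q patE4 9 v I) (hq : Q.card = 5) :
    ∃ T, Indep G T ∧ 10 ≤ T.card := by
  classical
  have hcount : ((Finset.range 9).filter (fun i => patAt patE4 i = true)).card = Q.card := by
    rw [hq]; decide
  have hoff : ∀ i : ℕ, i < 9 → patAt patE4 i = false → 2 ≤ (Aof G v (v (i : ℕ))).card := by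
    intro i hi hp
    exact S.exits_ge_two hcount ⟨_, rfl⟩ (S.notQ hcount hi hp)
  obtain ⟨uz, huz, u2, hu2, u3, hu3, u4, hu4, u1, hu1, h1, h2, h3, h4, h5, h6, h7, h8, h9, h10⟩ :=
    sdr_five (Lz := Aof G v (v ((2 : ℕ) : ℤ))) (L2 := Aof G v (v ((6 : ℕ) : ℤ)))
      (L3 := Aof G v (v ((7 : ℕ) : ℤ))) (L4 := Aof G v (v ((8 : ℕ) : ℤ)))
      (L1 := Aof G v (v ((5 : ℕ) : ℤ)))
      (Finset.card_pos.1 (S.exits_ge_one _)) (hoff 6 (by omega) (by decide))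
      (hoff 7 (by omega) (by decide)) (hoff 8 (by omega) (by decide)) (hoff 5 (by omega) (by decide))
      (S.U_disj (⟨[6, 5, 4, 1, 2, 3, 0, 8, 7], by decide⟩)) (S.U_disj (⟨[6, 7, 8, 0, 1, 2, 3, 4, 5], by decide⟩)) (S.U_disj (⟨[8, 0, 1, 2, 3, 4, 5, 6, 7], by decide⟩))
      (S.U_disj (⟨[2, 0, 1, 3, 4, 5, 6, 7, 8], by decide⟩)) (S.U_disj (⟨[2, 1, 3, 4, 0, 8, 7, 6, 5], by decide⟩))
  rw [mem_Aof] at huz hu2 hu3 hu4 hu1
  have hcardA : ∀ u : V, (∀ t : ℤ, v t ≠ u) → 6 ≤ (Aof G v u).card := by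
    intro u hu
    have := S.card_Aof_ge hu labE4 3 (by decide)
      (fun a ha b hb hab hl => idxPath_of_hamCheck (labCheckE4 a ha b hb hab hl))
    omega
  have hag : ∀ u : V, (∀ t : ℤ, v t ≠ u) → AG G (Aof G v u) 2 := fun u hu =>
    S.AG_two (subset_refl _) (by have := hcardA u hu; omega)
  have hagE : ∀ u w : V, (∀ t : ℤ, v t ≠ u) → AG G ((Aof G v u).erase w) 2 := fun u w hu =>
    S.AG_two (Finset.erase_subset _ _) (by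
      have h0 := hcardA u hu
      have h00 := Finset.pred_card_le_card_erase (s := Aof G v u) (a := w)
      omega)
  have cz2 := (S.clean_of_s234 (i := 2) (j := 6) huz.2 hu2.2 huz.1 hu2.1 h1 ⟨[2, 1, 3, 4, 0, 8, 7, 6], by decide⟩ ⟨[2, 0, 1, 3, 4, 5, 6], by decide⟩ ⟨[2, 0, 1, 4, 5, 6], by decide⟩)
  have cz3 := (S.clean_of_s234 (i := 2) (j := 7) huz.2 hu3.2 huz.1 hu3.1 h2 ⟨[2, 0, 1, 3, 4, 5, 6, 7], by decide⟩ ⟨[2, 0, 1, 4, 5, 6, 7], by decide⟩ ⟨[2, 0, 4, 5, 6, 7], by decide⟩)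
  have cz4 := (S.clean_of_s234 (i := 2) (j := 8) huz.2 hu4.2 huz.1 hu4.1 h3 ⟨[2, 0, 1, 4, 5, 6, 7, 8], by decide⟩ ⟨[2, 0, 4, 5, 6, 7, 8], by decide⟩ ⟨[2, 1, 3, 4, 0, 8], by decide⟩)
  have cz1 := (S.clean_of_s234 (i := 2) (j := 5) huz.2 hu1.2 huz.1 hu1.1 h4 ⟨[2, 1, 3, 0, 8, 7, 6, 5], by decide⟩ ⟨[2, 1, 0, 8, 7, 6, 5], by decide⟩ ⟨[2, 0, 1, 3, 4, 5], by decide⟩)
  have c23 := (S.clean_of_s234 (i := 6) (j := 7) hu2.2 hu3.2 hu2.1 hu3.1 h5 ⟨[6, 5, 4, 1, 2, 0, 8, 7], by decide⟩ ⟨[6, 5, 4, 1, 0, 8, 7], by decide⟩ ⟨[6, 5, 4, 0, 8, 7], by decide⟩)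
  have c24 := (S.clean_of_s234 (i := 6) (j := 8) hu2.2 hu4.2 hu2.1 hu4.1 h6 ⟨[6, 5, 4, 1, 2, 3, 0, 8], by decide⟩ ⟨[6, 5, 4, 1, 2, 0, 8], by decide⟩ ⟨[6, 5, 4, 1, 0, 8], by decide⟩)
  have c21 := (S.clean_of_s234 (i := 6) (j := 5) hu2.2 hu1.2 hu2.1 hu1.1 h7 ⟨[6, 7, 8, 0, 1, 2, 4, 5], by decide⟩ ⟨[6, 7, 8, 0, 1, 4, 5], by decide⟩ ⟨[6, 7, 8, 0, 4, 5], by decide⟩)
  have c34 := (S.clean_of_s234 (i := 7) (j := 8) hu3.2 hu4.2 hu3.1 hu4.1 h8 ⟨[7, 6, 5, 4, 1, 2, 0, 8], by decide⟩ ⟨[7, 6, 5, 4, 1, 0, 8], by decide⟩ ⟨[7, 6, 5, 4, 0, 8], by decide⟩)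
  have c31 := (S.clean_of_s234 (i := 7) (j := 5) hu3.2 hu1.2 hu3.1 hu1.1 h9 ⟨[7, 8, 0, 1, 2, 3, 4, 5], by decide⟩ ⟨[7, 8, 0, 1, 2, 4, 5], by decide⟩ ⟨[7, 8, 0, 1, 4, 5], by decide⟩)
  have c41 : Clean G ((Aof G v u4).erase u1) ((Aof G v u1).erase u4) :=
    S.clean_gen (i := 8) (j := 5) hu4.2 hu1.2 hu4.1 hu1.1 h10 ⟨[8, 0, 1, 2, 3, 4, 5], by decide⟩ ⟨[8, 0, 1, 2, 4, 5], by decide⟩
      (Finset.erase_subset _ _) (Finset.erase_subset _ _) (by simp) (by simp)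
  have e4 : (Aof G v u4).erase u1 ⊆ Aof G v u4 := Finset.erase_subset _ _
  have e1 : (Aof G v u1).erase u4 ⊆ Aof G v u1 := Finset.erase_subset _ _
  have a1 := AG.union (hag uz huz.2) (hag u2 hu2.2) cz2
  have a2 := AG.union a1 (hag u3 hu3.2) (Clean.union_left cz3 c23)
  have a3 := AG.union a2 (hagE u4 u1 hu4.2) (Clean.union_left (Clean.union_left (cz4.mono (subset_refl _) e4) (c24.mono (subset_refl _) e4)) (c34.mono (subset_refl _) e4))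
  have a4 := AG.union a3 (hagE u1 u4 hu1.2) (Clean.union_left (Clean.union_left (Clean.union_left (cz1.mono (subset_refl _) e1) (c21.mono (subset_refl _) e1)) (c31.mono (subset_refl _) e1)) c41)
  exact a4.exists_indep

end Crest.Agent.CycleRamsey
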