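import Crest.Agent.Lib.CycleRamsey.BCExcBridge

/-!
# The exceptional pattern E5: `(q, r) = (5, 4)`, gaps `[0, 0, 1, 0, 3]`, `k = 9`
(helper31, row 54, S0075)

Only `s = 3` is missing on the pairs `(Q₁, S)`, `(Q₂, S)`.  The overlaps are isolated.
-/

set_option autoImplicit false
set_option linter.unusedSectionVars false
set_option linter.unusedVariables false

namespace Crest.Agent.CycleRamsey

open SimpleGraph

variable {V : Type} [Fintype V] [DecidableEq V] {G : SimpleGraph V}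
variable {Q : Finset V} {v : ℤ → V} {I : Finset V}

/-- The overlap lemma for three sets: `A₁, A₂` clean, no edges from `A₁, A₂` to `A₃` (but possibly
common vertices, which are then isolated). -/
theorem AG_overlap {A1 A2 A3 : Finset V} (h12 : Clean G A1 A2)
    (h13 : ∀ x ∈ A1, ∀ y ∈ A3, x ≠ y → ¬ G.Adj x y)
    (h23 : ∀ x ∈ A2, ∀ y ∈ A3, x ≠ y → ¬ G.Adj x y) {a1 a2 a3 : ℕ}
    (p1 : AG G (A1 \ A3) a1) (p2 : AG G (A2 \ A3) a2) (p3 : AG G (A3 \ (A1 ∪ A2)) a3) :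
    AG G (A1 ∪ A2 ∪ A3) ((A1 ∩ A3).card + (A2 ∩ A3).card + a1 + a2 + a3) := by
  classical
  set O := (A1 ∩ A3) ∪ (A2 ∩ A3) with hO
  have hOc : O.card = (A1 ∩ A3).card + (A2 ∩ A3).card := by
    rw [hO, Finset.card_union_of_disjoint]
    rw [Finset.disjoint_left]
    intro x hx hx'
    exact h12.1 x (Finset.mem_inter.1 hx).1 (Finset.mem_inter.1 hx').1
  have hOmem : ∀ x ∈ O, x ∈ A3 ∧ (x ∈ A1 ∨ x ∈ A2) := by
    intro x hx
    rcases Finset.mem_union.1 hx with h | h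
    · exact ⟨(Finset.mem_inter.1 h).2, Or.inl (Finset.mem_inter.1 h).1⟩
    · exact ⟨(Finset.mem_inter.1 h).2, Or.inr (Finset.mem_inter.1 h).1⟩
  -- any vertex of `O` has no edge to `A₃`
  have hO3 : ∀ x ∈ O, ∀ y ∈ A3, x ≠ y → ¬ G.Adj x y := by
    intro x hx y hy hxy
    rcases (hOmem x hx).2 with h | h
    · exact h13 x h y hy hxy
    · exact h23 x h y hy hxy
  have hOind : AG G O O.card := ⟨O, subset_refl _, fun x hx y hy hxy => hO3 x hx y (hOmem y hy).1 hxy, le_rfl⟩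
  have c12 : Clean G (A1 \ A3) (A2 \ A3) :=
    h12.mono Finset.sdiff_subset Finset.sdiff_subset
  have c13 : Clean G (A1 \ A3) (A3 \ (A1 ∪ A2)) := by
    constructor
    · intro x hx hx'
      exact (Finset.mem_sdiff.1 hx).2 (Finset.mem_sdiff.1 hx').1
    · intro x hx y hy
      apply h13 x (Finset.mem_sdiff.1 hx).1 y (Finset.mem_sdiff.1 hy).1
      rintro rfl
      exact (Finset.mem_sdiff.1 hx).2 (Finset.mem_sdiff.1 hy).1
  have c23 : Clean G (A2 \ A3) (A3 \ (A1 ∪ A2)) := by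
    constructor
    · intro x hx hx'
      exact (Finset.mem_sdiff.1 hx).2 (Finset.mem_sdiff.1 hx').1
    · intro x hx y hy
      apply h23 x (Finset.mem_sdiff.1 hx).1 y (Finset.mem_sdiff.1 hy).1
      rintro rfl
      exact (Finset.mem_sdiff.1 hx).2 (Finset.mem_sdiff.1 hy).1
  have cO1 : Clean G O (A1 \ A3) := by
    constructor
    · intro x hx hx'
      exact (Finset.mem_sdiff.1 hx').2 (hOmem x hx).1
    · intro x hx y hy hadj
      refine h13 y (Finset.mem_sdiff.1 hy).1 x (hOmem x hx).1 ?_ hadj.symm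
      rintro rfl
      exact (Finset.mem_sdiff.1 hy).2 (hOmem _ hx).1
  have cO2 : Clean G O (A2 \ A3) := by
    constructor
    · intro x hx hx'
      exact (Finset.mem_sdiff.1 hx').2 (hOmem x hx).1
    · intro x hx y hy hadj
      refine h23 y (Finset.mem_sdiff.1 hy).1 x (hOmem x hx).1 ?_ hadj.symm
      rintro rfl
      exact (Finset.mem_sdiff.1 hy).2 (hOmem _ hx).1
  have cO3 : Clean G O (A3 \ (A1 ∪ A2)) := by
    constructor
    · intro x hx hx'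
      apply (Finset.mem_sdiff.1 hx').2
      rcases (hOmem x hx).2 with h | h
      · exact Finset.mem_union_left _ h
      · exact Finset.mem_union_right _ h
    · intro x hx y hy
      apply hO3 x hx y (Finset.mem_sdiff.1 hy).1
      rintro rfl
      apply (Finset.mem_sdiff.1 hy).2
      rcases (hOmem _ hx).2 with h | h
      · exact Finset.mem_union_left _ h
      · exact Finset.mem_union_right _ h
  have a := AG.union hOind p1 cO1
  have b := AG.union a p2 (Clean.union_left cO2 c12)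
  have c := AG.union b p3 (Clean.union_left (Clean.union_left cO3 c13) c23)
  refine c.mono ?_ (by omega)
  intro x hx
  simp only [Finset.mem_union, Finset.mem_sdiff, Finset.mem_inter] at hx ⊢
  simp only [hO, Finset.mem_union, Finset.mem_inter] at hx
  tauto

/-- A lower bound for `AG` on a subset of `Aof u` by its size. -/
theorem ExcSetup.AG_card {pat : List Bool} {k : ℕ} (S : ExcSetup G Q pat k v I) {u : V} {B : Finset V}
    (hB : B ⊆ Aof G v u) :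
    ∃ a, AG G B a ∧ (Q.card ≤ B.card → 2 ≤ a) ∧ (1 ≤ B.card → 1 ≤ a) := by
  by_cases h : Q.card ≤ B.card
  · exact ⟨2, S.AG_two hB h, fun _ => le_rfl, fun _ => by norm_num⟩
  · by_cases h1 : 1 ≤ B.card
    · exact ⟨1, AG.of_nonempty (Finset.card_pos.1 h1), fun h' => absurd h' h, fun _ => le_rfl⟩
    · exact ⟨0, AG.zero B, fun h' => absurd h' h, fun h' => absurd h' h1⟩

/-- The pattern `[0, 0, 1, 0, 3]`. -/
def patE5 : List Bool := [true, true, true, false, true, true, false, false, false]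

/-- Labels. -/
def labE5 (i : ℕ) : ℕ := [0, 0, 1, 0, 0, 1, 1, 2, 0].getD i 0

theorem labCheckE5 : ∀ a < 9, ∀ b < 9, a ≠ b → labE5 a = labE5 b → hamCheck patE5 9 a b = true := by
  decide

theorem E5 (S : ExcSetup G Q patE5 9 v I) (hq : Q.card = 5) : ∃ T, Indep G T ∧ 10 ≤ T.card := by
  classical
  obtain ⟨u, hu⟩ := S.exists_exits
  have hcard : ∀ i, 6 ≤ (Aof G v (u i)).card := by
    intro i
    have := S.card_Aof_ge (u := u i) (S.Ioff _ (hu i).1) labE5 3 (by decide)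
      (fun a ha b hb hab hl => idxPath_of_hamCheck (labCheckE5 a ha b hb hab hl))
    omega
  have hag : ∀ i, AG G (Aof G v (u i)) 2 := fun i =>
    S.AG_two (subset_refl _) (by rw [hq]; have := hcard i; omega)
  set A1 := Aof G v (u 1) with hA1
  set A2 := Aof G v (u 2) with hA2
  set A3 := Aof G v (u 3) with hA3
  set A5 := Aof G v (u 5) with hA5
  set A6 := Aof G v (u 6) with hA6
  have c12 : Clean G A1 A2 := (S.A_clean (hu 1).1 (hu 2).1 (hu 1).2 (hu 2).2 ⟨[1, 0, 8, 7, 6, 5, 4, 3, 2], by decide⟩ ⟨[1, 0, 8, 7, 6, 5, 2], by decide⟩ ⟨[1, 0, 5, 4, 3, 2], by decide⟩)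
  have n13 : ∀ x ∈ A1, ∀ y ∈ A3, x ≠ y → ¬ G.Adj x y := (S.A_noEdge (hu 1).1 (hu 3).1 (hu 1).2 (hu 3).2 ⟨[1, 0, 8, 7, 6, 5, 2, 4, 3], by decide⟩ ⟨[1, 0, 2, 5, 4, 3], by decide⟩)
  have n23 : ∀ x ∈ A2, ∀ y ∈ A3, x ≠ y → ¬ G.Adj x y := (S.A_noEdge (hu 2).1 (hu 3).1 (hu 2).2 (hu 3).2 ⟨[2, 0, 8, 7, 6, 5, 1, 4, 3], by decide⟩ ⟨[2, 0, 1, 5, 4, 3], by decide⟩)
  have c15 : Clean G A1 A5 := (S.A_clean (hu 1).1 (hu 5).1 (hu 1).2 (hu 5).2 ⟨[1, 2, 3, 4, 0, 8, 7, 6, 5], by decide⟩ ⟨[1, 2, 0, 8, 7, 6, 5], by decide⟩ ⟨[1, 0, 2, 3, 4, 5], by decide⟩)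
  have c16 : Clean G A1 A6 := (S.A_clean (hu 1).1 (hu 6).1 (hu 1).2 (hu 6).2 ⟨[1, 2, 3, 4, 5, 0, 8, 7, 6], by decide⟩ ⟨[1, 0, 2, 3, 4, 5, 6], by decide⟩ ⟨[1, 0, 2, 4, 5, 6], by decide⟩)
  have c25 : Clean G A2 A5 := (S.A_clean (hu 2).1 (hu 5).1 (hu 2).2 (hu 5).2 ⟨[2, 3, 4, 1, 0, 8, 7, 6, 5], by decide⟩ ⟨[2, 1, 0, 8, 7, 6, 5], by decide⟩ ⟨[2, 0, 8, 7, 6, 5], by decide⟩)
  have c26 : Clean G A2 A6 := (S.A_clean (hu 2).1 (hu 6).1 (hu 2).2 (hu 6).2 ⟨[2, 3, 4, 1, 5, 0, 8, 7, 6], by decide⟩ ⟨[2, 1, 4, 0, 8, 7, 6], by decide⟩ ⟨[2, 0, 1, 4, 5, 6], by decide⟩)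
  have c35 : Clean G A3 A5 := (S.A_clean (hu 3).1 (hu 5).1 (hu 3).2 (hu 5).2 ⟨[3, 2, 1, 4, 0, 8, 7, 6, 5], by decide⟩ ⟨[3, 2, 0, 8, 7, 6, 5], by decide⟩ ⟨[3, 2, 0, 1, 4, 5], by decide⟩)
  have c36 : Clean G A3 A6 := (S.A_clean (hu 3).1 (hu 6).1 (hu 3).2 (hu 6).2 ⟨[3, 2, 1, 4, 5, 0, 8, 7, 6], by decide⟩ ⟨[3, 2, 0, 1, 4, 5, 6], by decide⟩ ⟨[3, 2, 0, 1, 5, 6], by decide⟩)
  have c56 : Clean G A5 A6 := (S.A_clean (hu 5).1 (hu 6).1 (hu 5).2 (hu 6).2 ⟨[5, 1, 2, 3, 4, 0, 8, 7, 6], by decide⟩ ⟨[5, 1, 2, 0, 8, 7, 6], by decide⟩ ⟨[5, 1, 0, 8, 7, 6], by decide⟩)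
  -- the sizes of the pieces
  obtain ⟨a1, p1, ha12, ha11⟩ := S.AG_card (u := u 1) (B := A1 \ A3) Finset.sdiff_subset
  obtain ⟨a2, p2, ha22, ha21⟩ := S.AG_card (u := u 2) (B := A2 \ A3) Finset.sdiff_subset
  obtain ⟨a3, p3, ha32, ha31⟩ := S.AG_card (u := u 3) (B := A3 \ (A1 ∪ A2)) Finset.sdiff_subset
  have hs1 : (A1 \ A3).card + (A1 ∩ A3).card = A1.card := Finset.card_sdiff_add_card_inter _ _
  have hs2 : (A2 \ A3).card + (A2 ∩ A3).card = A2.card := Finset.card_sdiff_add_card_inter _ _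
  have hs3 : (A3 \ (A1 ∪ A2)).card + (A1 ∩ A3).card + (A2 ∩ A3).card ≥ A3.card := by
    have hsub : A3 ⊆ (A3 \ (A1 ∪ A2)) ∪ (A1 ∩ A3) ∪ (A2 ∩ A3) := by
      intro x hx
      simp only [Finset.mem_union, Finset.mem_sdiff, Finset.mem_inter]
      tauto
    have h1 := Finset.card_le_card hsub
    have h2 := Finset.card_union_le ((A3 \ (A1 ∪ A2)) ∪ (A1 ∩ A3)) (A2 ∩ A3)
    have h3 := Finset.card_union_le (A3 \ (A1 ∪ A2)) (A1 ∩ A3)
    omega
  have h1c : 6 ≤ A1.card := hcard 1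
  have h2c : 6 ≤ A2.card := hcard 2
  have h3c : 6 ≤ A3.card := hcard 3
  have hov := AG_overlap c12 n13 n23 p1 p2 p3
  have h6 : AG G (A1 ∪ A2 ∪ A3) 6 := hov.mono (subset_refl _) (by omega)
  have a5 := AG.union h6 (hag 5) (Clean.union_left (Clean.union_left c15 c25) c35)
  have a6 := AG.union a5 (hag 6) (Clean.union_left (Clean.union_left (Clean.union_left c16 c26) c36) c56)
  exact a6.exists_indep

end Crest.Agent.CycleRamsey
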