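import Crest.Agent.Lib.CycleRamsey.BCExcLong

/-!
# One switching home (row 54, S0075; helper52)

All pairs of homes are clean for type A pieces, except pairs containing one special home `φ` with
`s = 4`.  The special home uses two nonadjacent neighbours off the cycle as soon as such a link
exists (hot lemma).  This covers the patterns `[0,0,0,1,0,4]`, `[0,0,1,0,0,4]` (E8).
-/

set_option autoImplicit false
set_option linter.unusedSectionVars false
set_option linter.unusedVariables false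

namespace Crest.Agent.CycleRamsey

open SimpleGraph
open Crest.Agent.Lib.CycleRamsey (HasCycle hasCycle_of_list nbrs mem_nbrs)

variable {V : Type} [DecidableEq V] {G : SimpleGraph V}

/-- A hot entry with at most one extra vertex. -/
def hotB1 (pat : List Bool) (k φ h c s : ℕ) : Bool :=
  decide (s + 1 ≤ k) && decide (c < k) && decide (c ≠ φ) &&
  (pchk pat k φ h (k + 1 - s) || (pchk pat k φ h (k + 1 - s - 1) && pchkA pat k c h (k - s) φ))

theorem hotEntry_of_hotB1 {pat : List Bool} {k φ h c s : ℕ} (hb : hotB1 pat k φ h c s = true) :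
    HotEntry pat k φ h s := by
  simp only [hotB1, Bool.and_eq_true, Bool.or_eq_true, decide_eq_true_eq] at hb
  obtain ⟨⟨⟨h1, h2⟩, h3⟩, h4⟩ := hb
  rcases h4 with h4 | ⟨h4, h5⟩
  · exact ⟨0, ∅, rfl, by omega, by omega, by simp, idxPath_of_pchk (by simpa using h4)⟩
  · refine ⟨1, {c}, by simp, h1, by omega, ?_, idxPath_of_pchk h4⟩
    intro c' hc'
    rw [Finset.mem_singleton] at hc'
    subst hc'
    exact ⟨h2, h3, idxPathA_of_pchkA h5⟩

/-- The table for one switching home. -/
def soTab (pat : List Bool) (k : ℕ) (HL : List ℕ) (φ c0 : ℕ) (lab : ℕ → ℕ) (m q : ℕ) : Bool :=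
  HL.all (fun z => decide (z < k)) && decide (φ ∈ HL) &&
  HL.all (fun z => HL.all (fun z' => if z ≠ φ ∧ z' ≠ φ ∧ z ≠ z' then
      pchk pat k z z' k && pchk pat k z z' (k - 2) && pchk pat k z z' (k - 3) else true)) &&
  HL.all (fun z => if z ≠ φ then
      pchk pat k φ z k && pchk pat k φ z (k - 1) && pchk pat k φ z (k - 2) &&
      hotB1 pat k φ z c0 1 && hotB1 pat k φ z c0 2 && hotB1 pat k φ z c0 3 && hotB1 pat k φ z c0 4
    else true) &&
  (List.range k).all (fun i => decide (lab i < m) && (List.range k).all (fun j =>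
    if i ≠ j ∧ lab i = lab j then pchk pat k i j k else true)) &&
  decide (q + m ≤ k) && decide (4 ≤ k)

section Setup

variable [Fintype V] {Q : Finset V} {pat : List Bool} {k : ℕ} {v : ℤ → V} {I : Finset V}

/-- THE COUNT with one switching home. -/
theorem ExcSetup.switchOne (S : ExcSetup G Q pat k v I) {HL : List ℕ} {φ c0 m q : ℕ} {lab : ℕ → ℕ}
    (hqQ : Q.card = q) (htab : soTab pat k HL φ c0 lab m q = true) :
    ∃ T, Indep G T ∧ HL.toFinset.card * 2 ≤ T.card := by
  classical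
  simp only [soTab, Bool.and_eq_true, List.all_eq_true, List.mem_range, decide_eq_true_eq] at htab
  obtain ⟨⟨⟨⟨⟨⟨hlt, hφH⟩, ta⟩, tb⟩, tc⟩, hqm⟩, hk4⟩ := htab
  obtain ⟨u, hu⟩ := S.exists_exits
  have hoffu : ∀ z, ∀ i : ℤ, v i ≠ u z := fun z i => S.Ioff _ (hu z).1 i
  have hne_of : ∀ {i j : ℕ}, NoLink G v (v (j : ℕ)) (v (i : ℕ)) 1 → u i ≠ u j := by
    intro i j h he
    refine h [u i] (link_one (hoffu i) ?_ (hu i).2.symm) rfl
    rw [he]
    exact (hu j).2
  have hna_of : ∀ {i j : ℕ}, u i ≠ u j → ¬ G.Adj (u i) (u j) := by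
    intro i j h
    exact S.Iind _ (hu i).1 _ (hu j).1 h
  have hzz : ∀ z ∈ HL, ∀ z' ∈ HL, z ≠ φ → z' ≠ φ → z ≠ z' →
      NoLink G v (v (z' : ℕ)) (v (z : ℕ)) 1 ∧ NoLink G v (v (z' : ℕ)) (v (z : ℕ)) 3 ∧
        NoLink G v (v (z' : ℕ)) (v (z : ℕ)) 4 := by
    intro z hz z' hz' h1 h2 h3
    have := ta z hz z' hz'
    rw [if_pos ⟨h1, h2, h3⟩] at this
    simp only [Bool.and_eq_true] at this
    obtain ⟨⟨a1, a2⟩, a3⟩ := this
    exact ⟨S.noLink (idxPath_of_pchk a1) rfl, S.noLink (idxPath_of_pchk a2) (by omega),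
      S.noLink (idxPath_of_pchk a3) (by omega)⟩
  have hφz : ∀ z ∈ HL, z ≠ φ →
      NoLink G v (v (z : ℕ)) (v (φ : ℕ)) 1 ∧ NoLink G v (v (z : ℕ)) (v (φ : ℕ)) 2 ∧
        NoLink G v (v (z : ℕ)) (v (φ : ℕ)) 3 ∧
        ∀ X, Link G v (v (z : ℕ)) (v (φ : ℕ)) X → X ≠ [] → X.length ≤ 4 → NC G v φ := by
    intro z hz h1
    have := tb z hz
    rw [if_pos h1] at this
    simp only [Bool.and_eq_true] at this
    obtain ⟨⟨⟨⟨⟨⟨a1, a2⟩, a3⟩, a4⟩, a5⟩, a6⟩, a7⟩ := this
    refine ⟨S.noLink (idxPath_of_pchk a1) rfl, S.noLink (idxPath_of_pchk a2) (by omega),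
      S.noLink (idxPath_of_pchk a3) (by omega), ?_⟩
    intro X hX hne hlen
    refine S.hot (hlt φ hφH) ?_ X hX hne hlen
    intro s hs1 hs4
    rcases (by omega : s = 1 ∨ s = 2 ∨ s = 3 ∨ s = 4) with rfl | rfl | rfl | rfl
    · exact hotEntry_of_hotB1 a4
    · exact hotEntry_of_hotB1 a5
    · exact hotEntry_of_hotB1 a6
    · exact hotEntry_of_hotB1 a7
  set F : ℕ → Finset V := fun z =>
    if z = φ ∧ NC G v φ then Aof G v (v (φ : ℕ)) else Aof G v (u z) with hF
  have hFA : ∀ z, ¬ (z = φ ∧ NC G v φ) → F z = Aof G v (u z) := by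
    intro z h
    simp only [hF]
    rw [if_neg h]
  have hAG : ∀ z ∈ HL.toFinset, AG G (F z) 2 := by
    intro z _
    by_cases h : z = φ ∧ NC G v φ
    · have : F z = Aof G v (v (φ : ℕ)) := by
        simp only [hF]
        rw [if_pos h]
      rw [this]
      obtain ⟨x, hx, y, hy, hxy, hadj⟩ := h.2
      exact AG.two hx hy hxy hadj
    · rw [hFA z h]
      refine S.AG_two (Finset.Subset.refl _) ?_
      have := S.card_Aof_ge (hoffu z) lab m (fun i hi => (tc i hi).1) ?_
      · omega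
      · intro i hi j hj hij hl
        have := (tc i hi).2 j hj
        rw [if_pos ⟨hij, hl⟩] at this
        exact idxPath_of_pchk this
  have hcleanφ : ∀ z ∈ HL, z ≠ φ → Clean G (F φ) (F z) := by
    intro z hz hzφ
    obtain ⟨n1, n2, n3, nh⟩ := hφz z hz hzφ
    rw [hFA z (fun h => hzφ h.1)]
    by_cases c : NC G v φ
    · have : F φ = Aof G v (v (φ : ℕ)) := by
        simp [hF, c]
      rw [this]
      exact clean_XA (hoffu z) (hu z).2 n1.symm n2.symm n3.symm
    · rw [hFA φ (fun h => c h.2)]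
      have hne : u φ ≠ u z := hne_of n1
      refine clean_AA (hoffu φ) (hoffu z) (hu φ).2 (hu z).2 hne (hna_of hne) n3.symm ?_
      intro X hX hs
      refine c (nh X.reverse hX.reverse ?_ ?_)
      · intro h0
        have h00 : X.length = 0 := by
          simpa using congrArg List.length h0
        omega
      · rw [List.length_reverse]
        omega
  have hU := AG_biUnion (G := G) HL.toFinset F 2 hAG (by
    intro z hz z' hz' hne
    rw [List.mem_toFinset] at hz hz'
    by_cases h1 : z = φ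
    · subst h1
      exact hcleanφ z' hz' (Ne.symm hne)
    · by_cases h2 : z' = φ
      · subst h2
        exact (hcleanφ z hz h1).symm
      · rw [hFA z (fun h => h1 h.1), hFA z' (fun h => h2 h.1)]
        obtain ⟨n1, n3, n4⟩ := hzz z hz z' hz' h1 h2 hne
        have hne' : u z ≠ u z' := hne_of n1
        exact clean_AA (hoffu z) (hoffu z') (hu z).2 (hu z').2 hne' (hna_of hne') n3.symm n4.symm)
  obtain ⟨T, hT, hc⟩ := hU.exists_indep
  exact ⟨T, hT, hc⟩

/-- A labelling with few classes. -/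
def e8LabA (i : ℕ) : ℕ := if i ≤ 4 ∨ i = 10 then 0 else if i ≤ 7 then 1 else 2

/-- A labelling with few classes. -/
def e8LabB (i : ℕ) : ℕ := if i ≤ 3 ∨ i = 5 ∨ i = 10 then 0 else if i ≤ 7 then 1 else 2

/-- Pattern `[0,0,0,1,0,4]`. -/
theorem excE8a (S : ExcSetup G Q [true, true, true, true, false, true, true, false, false, false,
    false] 11 v I) (hq : Q.card = 6) : ∃ T, Indep G T ∧ 12 ≤ T.card := by
  have hT := S.switchOne (HL := [1, 2, 3, 4, 6, 7]) (φ := 4) (c0 := 8) (m := 3) (lab := e8LabA)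
    hq (by decide +kernel)
  simpa using hT

/-- Pattern `[0,0,1,0,0,4]`. -/
theorem excE8b (S : ExcSetup G Q [true, true, true, false, true, true, true, false, false, false,
    false] 11 v I) (hq : Q.card = 6) : ∃ T, Indep G T ∧ 12 ≤ T.card := by
  have hT := S.switchOne (HL := [1, 2, 3, 5, 6, 7]) (φ := 3) (c0 := 8) (m := 3) (lab := e8LabB)
    hq (by decide +kernel)
  simpa using hT

end Setup

end Crest.Agent.CycleRamsey
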