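import Mathlib

/-!
# Pure arithmetic of ear weights (row 54, BIG CLIQUE)

`E` is a finite family of ears of a cycle through a clique `Q` (`q = |Q|`), `a y` the weight
(number of interior vertices) of `y ∈ E`.
A subfamily `U` with `r + 1 ≤ a(U)` and `a(U) + min q (2|U|) ≤ r + q + 1` gives a cycle of length
`k + 1 = q + r + 1` (rule C); a subfamily with `r' < a(U) ≤ r` gives a cycle through `Q` longer
than `D` (of length `q + r'`) and of length `≤ k`.
The lemma `ear_arith` says: for `q ≥ 8`, `r < q`, and `s ∈ {1, 3, 4}`, one of these always exists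
when the family has total weight `r' + s` with an ear of weight `≥ s`.
-/

namespace Crest.Agent.Lib.CycleRamsey

open Finset

variable {ι : Type*} [DecidableEq ι]

/-- Minimal subfamily containing `x` of total weight `≥ r + 1`. -/
theorem exists_min_subfamily (E : Finset ι) (a : ι → ℕ) {x : ι} (hx : x ∈ E) {r : ℕ}
    (hW : r + 1 ≤ ∑ y ∈ E, a y) :
    ∃ U ⊆ E, x ∈ U ∧ r + 1 ≤ ∑ y ∈ U, a y ∧ ∀ y ∈ U, y ≠ x → ∑ z ∈ U, a z ≤ r + a y := by
  classical
  -- induct on the cardinality: choose `U` of minimal cardinality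
  let P : Finset ι → Prop := fun U => U ⊆ E ∧ x ∈ U ∧ r + 1 ≤ ∑ y ∈ U, a y
  have hP : ∃ U, P U := ⟨E, Subset.refl _, hx, hW⟩
  obtain ⟨U, hU, hmin⟩ : ∃ U, P U ∧ ∀ V, P V → U.card ≤ V.card := by
    classical
    let n := Nat.find (⟨E.card, E, ⟨Subset.refl _, hx, hW⟩, rfl⟩ : ∃ n, ∃ U, P U ∧ U.card = n)
    have hn := Nat.find_spec (⟨E.card, E, ⟨Subset.refl _, hx, hW⟩, rfl⟩ : ∃ n, ∃ U, P U ∧ U.card = n)
    obtain ⟨U, hU, hUc⟩ := hn
    refine ⟨U, hU, fun V hV => ?_⟩
    rw [hUc]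
    exact Nat.find_min' _ ⟨V, hV, rfl⟩
  refine ⟨U, hU.1, hU.2.1, hU.2.2, fun y hy hyx => ?_⟩
  by_contra hcon
  push Not at hcon
  have hsum : ∑ z ∈ U.erase y, a z + a y = ∑ z ∈ U, a z := Finset.sum_erase_add U a hy
  have hV : P (U.erase y) :=
    ⟨(Finset.erase_subset _ _).trans hU.1, Finset.mem_erase.2 ⟨hyx.symm, hU.2.1⟩, by omega⟩
  have := hmin _ hV
  rw [Finset.card_erase_of_mem hy] at this
  have : 0 < U.card := Finset.card_pos.2 ⟨y, hy⟩
  omega

/-- Counting in a minimal subfamily: all ears other than `x` have weight `≥ e + 1`. -/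
theorem min_subfamily_count (U : Finset ι) (a : ι → ℕ) {x : ι} (hx : x ∈ U) {r e : ℕ}
    (he : ∑ y ∈ U, a y = r + 1 + e) (hmin : ∀ y ∈ U, y ≠ x → ∑ z ∈ U, a z ≤ r + a y) :
    a x + (U.card - 1) * (e + 1) ≤ r + 1 + e := by
  have h1 : ∑ y ∈ U.erase x, a y + a x = ∑ y ∈ U, a y := Finset.sum_erase_add U a hx
  have h2 : (U.erase x).card • (e + 1) ≤ ∑ y ∈ U.erase x, a y := by
    apply Finset.card_nsmul_le_sum
    intro y hy
    have := hmin y (Finset.mem_of_mem_erase hy) (Finset.ne_of_mem_erase hy)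
    omega
  rw [Finset.card_erase_of_mem hx, smul_eq_mul] at h2
  omega

/-- Main arithmetic lemma: for `q ≥ 8`, `r < q`, `s ∈ {1,3,4}`. -/
theorem ear_arith (E : Finset ι) (a : ι → ℕ) {x : ι} (hx : x ∈ E) {q r r' s : ℕ}
    (hq : 8 ≤ q) (hr : r < q) (hr' : r' ≤ r) (hs : s = 1 ∨ s = 3 ∨ s = 4) (hax : s ≤ a x)
    (hW : ∑ y ∈ E, a y = r' + s) :
    ∃ U ⊆ E, (r' < ∑ y ∈ U, a y ∧ ∑ y ∈ U, a y ≤ r) ∨
      (r + 1 ≤ ∑ y ∈ U, a y ∧ ∑ y ∈ U, a y + min q (2 * U.card) ≤ r + q + 1) := by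
  classical
  by_cases hWr : r' + s ≤ r
  · refine ⟨E, Subset.refl _, Or.inl ?_⟩
    rw [hW]
    rcases hs with rfl | rfl | rfl <;> omega
  obtain ⟨U, hUE, hxU, hU1, hUmin⟩ := exists_min_subfamily E a hx (r := r) (by omega)
  obtain ⟨e, he⟩ : ∃ e, ∑ y ∈ U, a y = r + 1 + e := ⟨∑ y ∈ U, a y - (r + 1), by omega⟩
  have hcount := min_subfamily_count U a hxU he hUmin
  have hle : ∑ y ∈ U, a y ≤ r' + s := by
    rw [← hW]; exact Finset.sum_le_sum_of_subset hUE
  have hU0 : 0 < U.card := Finset.card_pos.2 ⟨x, hxU⟩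
  by_cases hgood : r + 1 + e + min q (2 * U.card) ≤ r + q + 1
  · exact ⟨U, hUE, Or.inr ⟨hU1, by rw [he]; exact hgood⟩⟩
  -- the failing case: `e + min q (2u) ≥ q + 1`, so `e ≥ 1` and `e + 2u ≥ q + 1`
  have hfail : q + 1 ≤ e + min q (2 * U.card) := by omega
  have he1 : 1 ≤ e := by have := min_le_left q (2 * U.card); omega
  have h2u : q + 1 ≤ e + 2 * U.card := by have := min_le_right q (2 * U.card); omega
  obtain ⟨u, hu⟩ : ∃ u, U.card = u + 1 := ⟨U.card - 1, by omega⟩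
  rw [hu] at hcount h2u
  simp only [Nat.add_sub_cancel] at hcount
  have hax' : s + u * (e + 1) ≤ r + 1 + e := by omega
  have hes : e + 1 ≤ s := by omega
  -- only `s = 3, e = 1` survives
  have h31 : s = 3 ∧ e = 1 := by
    rcases hs with rfl | rfl | rfl
    · omega
    · have : e = 1 ∨ e = 2 := by omega
      rcases this with rfl | rfl
      · exact ⟨rfl, rfl⟩
      · exfalso; omega
    · have : e = 1 ∨ e = 2 ∨ e = 3 := by omega
      rcases this with rfl | rfl | rfl <;> exfalso <;> omega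
  obtain ⟨rfl, rfl⟩ := h31
  -- the tight pattern: `r = q - 1`, `U` a perfect matching, all other ears of `U` of weight exactly 2
  have hu2 : 1 ≤ u := by omega
  have hcard2 : 2 ≤ U.card := by omega
  obtain ⟨y, hyU, hyx⟩ : ∃ y ∈ U, y ≠ x := by
    by_contra hno
    push Not at hno
    have : U ⊆ {x} := fun z hz => Finset.mem_singleton.2 (hno z hz)
    have := Finset.card_le_card this
    simp at this
    omega
  have hy2 : a y = 2 := by
    have h1 := hUmin y hyU hyx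
    -- `a y ≥ 2`, and the sum is exact
    have h3 : ∑ z ∈ (U.erase x).erase y, a z + a y = ∑ z ∈ U.erase x, a z :=
      Finset.sum_erase_add _ a (Finset.mem_erase.2 ⟨hyx, hyU⟩)
    have h4 : ∑ z ∈ U.erase x, a z + a x = ∑ z ∈ U, a z := Finset.sum_erase_add U a hxU
    have h5 : ((U.erase x).erase y).card • 2 ≤ ∑ z ∈ (U.erase x).erase y, a z := by
      apply Finset.card_nsmul_le_sum
      intro z hz
      have hz1 := Finset.mem_erase.1 hz
      have hz2 := Finset.mem_erase.1 hz1.2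
      have := hUmin z hz2.2 hz2.1
      omega
    rw [Finset.card_erase_of_mem (Finset.mem_erase.2 ⟨hyx, hyU⟩), Finset.card_erase_of_mem hxU,
      hu, smul_eq_mul] at h5
    simp only [Nat.add_sub_cancel] at h5
    obtain ⟨u', rfl⟩ : ∃ u', u = u' + 1 := ⟨u - 1, by omega⟩
    simp only [Nat.add_sub_cancel] at h5
    omega
  have hyE : y ∈ E := hUE hyU
  have hsumE : ∑ z ∈ E.erase y, a z + a y = ∑ z ∈ E, a z := Finset.sum_erase_add E a hyE
  have hr'2 : r' = r - 1 ∨ r' = r := by omega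
  refine ⟨E.erase y, Finset.erase_subset _ _, ?_⟩
  rcases hr'2 with h | h
  · left; omega
  · right
    have := min_le_left q (2 * (E.erase y).card)
    omega

end Crest.Agent.Lib.CycleRamsey
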