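import Crest.Agent.Lib.CycleRamsey.SmallClique

/-!
# Recursion from an independent exit set (lead #1828(4), row 54)

`Y` is an independent set with `|Y| = q` off a set `X`, `|X| ≤ k`.
`L₁ = N(Y) \ (X ∪ Y)`, `L₂ = N(L₁) \ (X ∪ Y ∪ L₁)`.
If paths with `ℓ` interior vertices off `X ∪ Y` between distinct elements of `Y` are excluded for
suitable `ℓ` then Lemma A bounds `|L₁| ≤ (q - 1) α(L₁)` and `|L₂| ≤ q α(L₂)`, and (H) gives a
contradiction as soon as `q < r (r - 1)`, `r = k - q`.
-/

set_option autoImplicit false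
set_option linter.unusedSectionVars false
set_option linter.unusedVariables false

namespace Crest.Agent.CycleRamsey

open SimpleGraph
open Crest.Agent.Lib.CycleRamsey

variable {V : Type} [DecidableEq V] {G : SimpleGraph V}

/-- `g` is the interior of a path between `u` and `u'` off `B`. -/
def LinkPath (G : SimpleGraph V) (B : Finset V) (u u' : V) (g : List V) : Prop :=
  ∃ hg : g ≠ [], g.Nodup ∧ g.IsChain G.Adj ∧ (∀ x ∈ g, x ∉ B) ∧
    G.Adj u (g.head hg) ∧ G.Adj (g.getLast hg) u'

/-- No path with exactly `ℓ` interior vertices off `B` between distinct elements of `Y`. -/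
def Excl (G : SimpleGraph V) (B Y : Finset V) (ℓ : ℕ) : Prop :=
  ∀ u ∈ Y, ∀ u' ∈ Y, u ≠ u' → ∀ g : List V, LinkPath G B u u' g → g.length ≠ ℓ

/-- The arc `v i, v (i+1), ..., v (i + m - 1)`. -/
def arcList (v : ℤ → V) (i : ℤ) (m : ℕ) : List V := (List.range m).map (fun j : ℕ => v (i + j))

lemma arcList_length (v : ℤ → V) (i : ℤ) (m : ℕ) : (arcList v i m).length = m := by
  simp [arcList]

lemma arcList_mem {v : ℤ → V} {i : ℤ} {m : ℕ} {x : V} (h : x ∈ arcList v i m) : ∃ j : ℤ, x = v j := by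
  simp only [arcList, List.mem_map, List.mem_range] at h
  obtain ⟨j, _, rfl⟩ := h
  exact ⟨_, rfl⟩

lemma arcList_succ (v : ℤ → V) (i : ℤ) (m : ℕ) :
    arcList v i (m + 1) = v i :: arcList v (i + 1) m := by
  unfold arcList
  rw [List.range_succ_eq_map]
  simp only [List.map_cons, List.map_map]
  congr 1
  · simp
  · apply List.map_congr_left
    intro j _
    simp only [Function.comp]
    congr 1
    push_cast
    ring

lemma arcList_chain {v : ℤ → V} (hadj : ∀ i, G.Adj (v i) (v (i + 1))) (i : ℤ) (m : ℕ) :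
    (arcList v i m).IsChain G.Adj := by
  induction m generalizing i with
  | zero => simp [arcList]
  | succ m ih =>
    rw [arcList_succ]
    cases m with
    | zero => simp [arcList]
    | succ m =>
      have h := ih (i + 1)
      rw [arcList_succ] at h ⊢
      refine List.isChain_cons_cons.2 ⟨hadj i, h⟩

lemma arcList_nodup {v : ℤ → V} {n : ℕ} (heq : ∀ i j, v i = v j ↔ (n : ℤ) ∣ i - j) (i : ℤ) {m : ℕ}
    (hm : m ≤ n) : (arcList v i m).Nodup := by
  unfold arcList
  refine List.Nodup.map_on ?_ List.nodup_range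
  intro a ha b hb hab
  rw [List.mem_range] at ha hb
  have := (heq _ _).1 hab
  have h2 : (n : ℤ) ∣ (a : ℤ) - b := by
    have e : i + (a : ℤ) - (i + b) = a - b := by ring
    rwa [e] at this
  by_contra hne
  have hne' : (a : ℤ) - b ≠ 0 := by
    intro h0
    apply hne
    omega
  rcases lt_or_gt_of_ne hne' with h | h
  · have h3 : (n : ℤ) ∣ (b : ℤ) - a := by
      have := dvd_neg.2 h2
      simpa using this
    have := Int.le_of_dvd (by omega) h3
    omega
  · have := Int.le_of_dvd h h2
    omega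

lemma arcList_head {v : ℤ → V} {i : ℤ} {m : ℕ} (h : arcList v i (m + 1) ≠ []) :
    (arcList v i (m + 1)).head h = v i := by
  simp [arcList_succ]

lemma arcList_getLast {v : ℤ → V} {i : ℤ} {m : ℕ} (h : arcList v i (m + 1) ≠ []) :
    (arcList v i (m + 1)).getLast h = v (i + m) := by
  have h2 : (arcList v i (m + 1)).getLast h = (arcList v i (m + 1))[(arcList v i (m + 1)).length - 1]'(by
      simp [arcList_length]) := List.getLast_eq_getElem h
  rw [h2]
  simp [arcList]

/-- A bichromatic arc of length `ℓ` or `ℓ + 1` on a cycle. -/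
lemma bichromatic_arc {v : ℤ → V} {n : ℕ} (heq : ∀ i j, v i = v j ↔ (n : ℤ) ∣ i - j)
    (hadj : ∀ i, G.Adj (v i) (v (i + 1))) (f : V → Prop) {i0 j0 : ℤ} (h0 : f (v i0))
    (h1 : ¬ f (v j0)) {ℓ : ℕ} (hℓ : 2 ≤ ℓ) (hn : ℓ + 1 ≤ n) :
    ∃ g : List V, ∃ hg : g ≠ [], (g.length = ℓ ∨ g.length = ℓ + 1) ∧ (ℓ = 2 → g.length = 2) ∧ g.Nodup ∧
      g.IsChain G.Adj ∧ (∀ x ∈ g, ∃ j : ℤ, x = v j) ∧ f (g.head hg) ∧ ¬ f (g.getLast hg) := by
  classical
  -- a step where the colour changes at distance `d`
  have key : ∀ d : ℕ, (∃ i, ¬ (f (v i) ↔ f (v (i + d)))) ∨ (∃ i, ¬ (f (v i) ↔ f (v (i + (d + 1 : ℕ))))) := by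
    intro d
    by_contra hcon
    push Not at hcon
    obtain ⟨hA, hB⟩ := hcon
    have hstep : ∀ i, f (v i) ↔ f (v (i + 1)) := by
      intro i
      have h1 := hA (i - d)
      have h2 := hB (i - d)
      rw [show i - (d : ℤ) + d = i by ring] at h1
      rw [show i - (d : ℤ) + ((d + 1 : ℕ) : ℤ) = i + 1 by push_cast; ring] at h2
      exact h1.symm.trans h2
    have hall : ∀ i : ℤ, f (v i) ↔ f (v 0) := by
      intro i
      induction i using Int.induction_on with
      | zero => exact Iff.rfl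
      | succ m ih => exact (hstep m).symm.trans ih
      | pred m ih =>
        have := hstep (-(m : ℤ) - 1)
        rw [show -(m : ℤ) - 1 + 1 = -(m : ℤ) by ring] at this
        exact this.trans ih
    exact h1 ((hall j0).2 ((hall i0).1 h0))
  -- produce the list from a colour change
  have mk : ∀ (i : ℤ) (d : ℕ), d + 1 ≤ n → ¬ (f (v i) ↔ f (v (i + d))) →
      ∃ g : List V, ∃ hg : g ≠ [], g.length = d + 1 ∧ g.Nodup ∧ g.IsChain G.Adj ∧
        (∀ x ∈ g, ∃ j : ℤ, x = v j) ∧ f (g.head hg) ∧ ¬ f (g.getLast hg) := by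
    intro i d hd hch
    have hnd := arcList_nodup heq i hd
    have hc := arcList_chain hadj i (d + 1)
    have hne : arcList v i (d + 1) ≠ [] := by
      intro h
      have := arcList_length v i (d + 1)
      rw [h] at this
      simp at this
    by_cases hfi : f (v i)
    · have hfj : ¬ f (v (i + d)) := fun h => hch ⟨fun _ => h, fun _ => hfi⟩
      refine ⟨arcList v i (d + 1), hne, arcList_length _ _ _, hnd, hc, fun x hx => arcList_mem hx, ?_, ?_⟩
      · rw [arcList_head]; exact hfi
      · rw [arcList_getLast]; exact hfj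
    · have hfj : f (v (i + d)) := by
        by_contra h
        exact hch ⟨fun h' => absurd h' hfi, fun h' => absurd h' h⟩
      have hne' : (arcList v i (d + 1)).reverse ≠ [] := by simpa using hne
      refine ⟨(arcList v i (d + 1)).reverse, hne', by simp [arcList_length], List.nodup_reverse.2 hnd, ?_,
        fun x hx => arcList_mem (List.mem_reverse.1 hx), ?_, ?_⟩
      · rw [List.isChain_reverse]
        exact hc.imp (fun a b h => h.symm)
      · rw [List.head_reverse, arcList_getLast]; exact hfj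
      · rw [List.getLast_reverse, arcList_head]; exact hfi
  by_cases h2 : ℓ = 2
  · subst h2
    -- distance one: the colour changes at some edge
    have : ∃ i, ¬ (f (v i) ↔ f (v (i + (1 : ℕ)))) := by
      by_contra hcon
      push Not at hcon
      have hall : ∀ i : ℤ, f (v i) ↔ f (v 0) := by
        intro i
        induction i using Int.induction_on with
        | zero => exact Iff.rfl
        | succ m ih =>
          have := hcon m
          push_cast at this
          exact this.symm.trans ih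
        | pred m ih =>
          have := hcon (-(m : ℤ) - 1)
          push_cast at this
          rw [show -(m : ℤ) - 1 + 1 = -(m : ℤ) by ring] at this
          exact this.trans ih
      exact h1 ((hall j0).2 ((hall i0).1 h0))
    obtain ⟨i, hi⟩ := this
    obtain ⟨g, hg, hlen, h3, h4, h5, h6, h7⟩ := mk i 1 (by omega) hi
    exact ⟨g, hg, Or.inl hlen, fun _ => hlen, h3, h4, h5, h6, h7⟩
  · obtain ⟨d, rfl⟩ : ∃ d, ℓ = d + 1 := ⟨ℓ - 1, by omega⟩
    rcases key d with ⟨i, hi⟩ | ⟨i, hi⟩
    · obtain ⟨g, hg, hlen, h3, h4, h5, h6, h7⟩ := mk i d (by omega) hi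
      exact ⟨g, hg, Or.inl hlen, fun h => absurd h h2, h3, h4, h5, h6, h7⟩
    · obtain ⟨g, hg, hlen, h3, h4, h5, h6, h7⟩ := mk i (d + 1) (by omega) hi
      exact ⟨g, hg, Or.inr hlen, fun h => absurd h h2, h3, h4, h5, h6, h7⟩

section Layers

variable [Fintype V]

/-- First layer. -/
noncomputable def exL1 (G : SimpleGraph V) (B Y : Finset V) : Finset V := by
  classical exact Finset.univ.filter (fun x => x ∉ B ∧ ∃ u ∈ Y, G.Adj u x)

/-- Second layer. -/
noncomputable def exL2 (G : SimpleGraph V) (B Y : Finset V) : Finset V := by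
  classical exact Finset.univ.filter (fun x => x ∉ B ∧ x ∉ exL1 G B Y ∧ ∃ m ∈ exL1 G B Y, G.Adj m x)

lemma mem_exL1 {B Y : Finset V} {x : V} : x ∈ exL1 G B Y ↔ x ∉ B ∧ ∃ u ∈ Y, G.Adj u x := by
  classical
  unfold exL1
  simp

lemma mem_exL2 {B Y : Finset V} {x : V} :
    x ∈ exL2 G B Y ↔ x ∉ B ∧ x ∉ exL1 G B Y ∧ ∃ m ∈ exL1 G B Y, G.Adj m x := by
  classical
  unfold exL2
  simp

lemma lay_one {u x : V} (h : G.Adj u x) : x ∈ Lay G u 1 :=
  ⟨h.reachable, dist_eq_one_iff_adj.2 h⟩

lemma lay_two {u m x : V} (h1 : G.Adj u m) (h2 : G.Adj m x) (hne : u ≠ x) (hnadj : ¬ G.Adj u x) :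
    x ∈ Lay G u 2 := by
  have hr : G.Reachable u x := h1.reachable.trans h2.reachable
  refine ⟨hr, ?_⟩
  have hle : G.dist u x ≤ 2 := by
    have := SimpleGraph.dist_le (Walk.cons h1 (Walk.cons h2 Walk.nil))
    simpa using this
  have h0 : G.dist u x ≠ 0 := by
    intro h
    exact hne (hr.dist_eq_zero_iff.1 h)
  have h1' : G.dist u x ≠ 1 := by
    intro h
    exact hnadj (dist_eq_one_iff_adj.1 h)
  omega

/-- Chorded cycles in `L₁`: either bounded by theta, or a link. -/
lemma chord_L1 {k : ℕ} (hno : ¬ HasCycle G (k + 1)) (hk : 2 ≤ k) {B Y : Finset V} {ℓ : ℕ} (hℓ : 2 ≤ ℓ)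
    (hE1 : Excl G B Y ℓ) (hE2 : ℓ = 2 ∨ Excl G B Y (ℓ + 1)) {x : V} (p : G.Walk x x) (hp : IsChorded p)
    (hs : ∀ z ∈ p.support, z ∈ exL1 G B Y) (hlen : ℓ + 1 ≤ p.length) (hlen2 : k ≤ p.length) : False := by
  classical
  obtain ⟨n, t, v, hc, hn, hv⟩ := chordedCycle_of_isChorded hp
  obtain ⟨-, u, hu, hu0⟩ := mem_exL1.1 (hs _ (hv 0))
  by_cases hall : ∀ i, G.Adj u (v i)
  · -- mono-root
    exact layer_no_chorded hno u (le_refl 1) (by omega) hc (by omega) (fun i => lay_one (hall i))
  · push Not at hall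
    obtain ⟨j, hj⟩ := hall
    obtain ⟨g, hg, hlen', h2', hnd, hch, hmem, hf, hnf⟩ := bichromatic_arc hc.eq_iff hc.adj (fun z => G.Adj u z)
      hu0 hj hℓ (by omega)
    have hlast : g.getLast hg ∈ exL1 G B Y := by
      obtain ⟨j', hj'⟩ := hmem _ (List.getLast_mem hg)
      rw [hj']
      exact hs _ (hv j')
    obtain ⟨-, u', hu', hadj'⟩ := mem_exL1.1 hlast
    have hne : u ≠ u' := by
      rintro rfl
      exact hnf hadj'
    have hlink : LinkPath G B u u' g := by
      refine ⟨hg, hnd, hch, ?_, hf, hadj'.symm⟩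
      intro y hy
      obtain ⟨j', hj'⟩ := hmem y hy
      rw [hj']
      exact (mem_exL1.1 (hs _ (hv j'))).1
    rcases hlen' with h | h
    · exact hE1 u hu u' hu' hne g hlink h
    · rcases hE2 with h2 | h2
      · have := h2' h2
        omega
      · exact h2 u hu u' hu' hne g hlink h

/-- Cliques in `L₁`. -/
lemma clique_L1 {B Y : Finset V} {ℓ q : ℕ} (hℓ : 2 ≤ ℓ) (hℓq : ℓ ≤ q) (hE1 : Excl G B Y ℓ)
    (hmax : ∀ K : Finset V, (∀ x ∈ K, ∀ y ∈ K, x ≠ y → G.Adj x y) → K.card ≤ q)
    (K : Finset V) (hKs : K ⊆ exL1 G B Y) (hK : ∀ x ∈ K, ∀ y ∈ K, x ≠ y → G.Adj x y)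
    (hYB : Y ⊆ B) : K.card + 1 ≤ q := by
  classical
  by_contra hcon
  have hKq : q ≤ K.card := by omega
  have hne : K.Nonempty := by
    rw [← Finset.card_pos]; omega
  obtain ⟨x, hx⟩ := hne
  obtain ⟨-, u, hu, hux⟩ := mem_exL1.1 (hKs hx)
  have hnotall : ¬ ∀ y ∈ K, G.Adj u y := by
    intro hall
    have huK : u ∉ K := fun h => (mem_exL1.1 (hKs h)).1 (hYB hu)
    have := hmax (insert u K) (by
      intro a ha b hb hab
      rcases Finset.mem_insert.1 ha with h1 | h1 <;> rcases Finset.mem_insert.1 hb with h2 | h2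
      · exact absurd (h1.trans h2.symm) hab
      · rw [h1]; exact hall b h2
      · rw [h2]; exact (hall a h1).symm
      · exact hK a h1 b h2 hab)
    rw [Finset.card_insert_of_notMem huK] at this
    omega
  push Not at hnotall
  obtain ⟨x', hx', hnx'⟩ := hnotall
  obtain ⟨-, u', hu', hux'⟩ := mem_exL1.1 (hKs hx')
  have huu' : u ≠ u' := by
    rintro rfl
    exact hnx' hux'
  have hxx' : x ≠ x' := by
    rintro rfl
    exact hnx' hux
  -- the path through the clique
  let K' := (K.erase x).erase x'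
  have hK'card : K'.card + 2 = K.card := by
    have h1 := Finset.card_erase_of_mem (Finset.mem_erase.2 ⟨hxx'.symm, hx'⟩)
    have h2 := Finset.card_erase_of_mem hx
    have h3 : 2 ≤ K.card := by omega
    simp only [K']
    omega
  let l := K'.toList.take (ℓ - 2)
  have hllen : l.length = ℓ - 2 := by
    simp only [l, List.length_take, Finset.length_toList]
    omega
  have hlsub : ∀ y ∈ l, y ∈ K' := fun y hy => Finset.mem_toList.1 (List.mem_of_mem_take hy)
  have hlnd : l.Nodup := (Finset.nodup_toList K').sublist (List.take_sublist _ _)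
  let g := x :: (l ++ [x'])
  have hgK : ∀ y ∈ g, y ∈ K := by
    intro y hy
    rcases List.mem_cons.1 hy with h | h
    · rw [h]; exact hx
    · rcases List.mem_append.1 h with h | h
      · exact Finset.mem_of_mem_erase (Finset.mem_of_mem_erase (hlsub y h))
      · rw [List.mem_singleton.1 h]; exact hx'
  have hgnd : g.Nodup := by
    simp only [g]
    rw [List.nodup_cons, List.nodup_append]
    refine ⟨?_, hlnd, by simp, ?_⟩
    · intro h
      rcases List.mem_append.1 h with h | h
      · have := hlsub x h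
        simp [K'] at this
      · exact hxx' (List.mem_singleton.1 h)
    · intro a ha b hb hab
      rw [List.mem_singleton.1 hb] at hab
      subst hab
      have := hlsub a ha
      simp [K'] at this
  have hgch : g.IsChain G.Adj := by
    apply List.Pairwise.isChain
    exact hgnd.imp_of_mem (fun {a b} ha hb hab => hK a (hgK a ha) b (hgK b hb) hab)
  have hgne : g ≠ [] := by simp [g]
  have hlink : LinkPath G B u u' g := by
    refine ⟨hgne, hgnd, hgch, fun y hy => (mem_exL1.1 (hKs (hgK y hy))).1, ?_, ?_⟩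
    · simpa [g] using hux
    · have : g.getLast hgne = x' := by simp [g]
      rw [this]
      exact hux'.symm
  refine hE1 u hu u' hu' huu' g hlink ?_
  simp only [g, List.length_cons, List.length_append, List.length_nil, hllen]
  omega

/-- Chorded cycles in `L₂`. -/
lemma chord_L2 {k : ℕ} (hno : ¬ HasCycle G (k + 1)) (hk : 4 ≤ k) {B Y : Finset V} (hYB : Y ⊆ B) {ℓ : ℕ} (hℓ : 2 ≤ ℓ)
    (hE1 : Excl G B Y (ℓ + 2)) (hE2 : ℓ = 2 ∨ Excl G B Y (ℓ + 3)) {x : V} (p : G.Walk x x) (hp : IsChorded p)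
    (hs : ∀ z ∈ p.support, z ∈ exL2 G B Y) (hlen : ℓ + 1 ≤ p.length) (hlen2 : k ≤ p.length) : False := by
  classical
  obtain ⟨n, t, v, hc, hn, hv⟩ := chordedCycle_of_isChorded hp
  obtain ⟨hB0, hL0, m0, hm0, hm0x⟩ := mem_exL2.1 (hs _ (hv 0))
  obtain ⟨-, u, hu, hu0⟩ := mem_exL1.1 hm0
  let f : V → Prop := fun z => ∃ m ∈ exL1 G B Y, G.Adj u m ∧ G.Adj m z
  by_cases hall : ∀ i, f (v i)
  · -- mono-root
    refine layer_no_chorded hno u (j := 2) (by norm_num) (by omega) hc (by omega) (fun i => ?_)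
    obtain ⟨m, hm, h1, h2⟩ := hall i
    obtain ⟨hBi, hLi, -⟩ := mem_exL2.1 (hs _ (hv i))
    refine lay_two h1 h2 ?_ ?_
    · rintro h
      exact hBi (h ▸ hYB hu)
    · intro hadj
      exact hLi (mem_exL1.2 ⟨hBi, u, hu, hadj⟩)
  · push Not at hall
    obtain ⟨j, hj⟩ := hall
    have hf0 : f (v 0) := ⟨m0, hm0, hu0, hm0x⟩
    obtain ⟨g, hg, hlen', h2', hnd, hch, hmem, hf, hnf⟩ := bichromatic_arc hc.eq_iff hc.adj f
      hf0 hj hℓ (by omega)
    have hgL : ∀ y ∈ g, y ∈ exL2 G B Y := by
      intro y hy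
      obtain ⟨j', hj'⟩ := hmem y hy
      rw [hj']
      exact hs _ (hv j')
    obtain ⟨m, hm, hum, hmh⟩ := hf
    obtain ⟨hBl, hLl, m', hm', hm'l⟩ := mem_exL2.1 (hgL _ (List.getLast_mem hg))
    obtain ⟨-, u', hu', hu'm'⟩ := mem_exL1.1 hm'
    have hne : u ≠ u' := by
      rintro rfl
      exact hnf ⟨m', hm', hu'm', hm'l⟩
    have hmm' : m ≠ m' := by
      rintro rfl
      exact hnf ⟨m, hm, hum, hm'l⟩
    have hmg : m ∉ g := fun h => (mem_exL2.1 (hgL m h)).2.1 hm
    have hm'g : m' ∉ g := fun h => (mem_exL2.1 (hgL m' h)).2.1 hm'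
    let g' := m :: (g ++ [m'])
    have hg'ne : g' ≠ [] := by simp [g']
    have hlink : LinkPath G B u u' g' := by
      refine ⟨hg'ne, ?_, ?_, ?_, by simpa [g'] using hum, ?_⟩
      · simp only [g']
        rw [List.nodup_cons, List.nodup_append]
        refine ⟨?_, hnd, by simp, ?_⟩
        · intro h
          rcases List.mem_append.1 h with h | h
          · exact hmg h
          · exact hmm' (List.mem_singleton.1 h)
        · intro a ha b hb hab
          rw [List.mem_singleton.1 hb] at hab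
          subst hab
          exact hm'g ha
      · simp only [g']
        obtain ⟨y, l, rfl⟩ := List.exists_cons_of_ne_nil hg
        rw [List.cons_append, List.isChain_cons_cons]
        refine ⟨by simpa using hmh, ?_⟩
        rw [← List.cons_append, List.isChain_append]
        refine ⟨hch, by simp, ?_⟩
        intro a ha b hb
        have hla : a = (y :: l).getLast hg := by
          simp only [List.getLast?_eq_getLast_of_ne_nil hg, Option.mem_def, Option.some.injEq] at ha
          exact ha.symm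
        rw [List.head?_cons, Option.mem_def, Option.some.injEq] at hb
        rw [hla, ← hb]
        exact hm'l.symm
      · intro y hy
        rcases List.mem_cons.1 hy with h | h
        · rw [h]; exact (mem_exL1.1 hm).1
        · rcases List.mem_append.1 h with h | h
          · exact (mem_exL2.1 (hgL y h)).1
          · rw [List.mem_singleton.1 h]; exact (mem_exL1.1 hm').1
      · have : g'.getLast hg'ne = m' := by simp [g']
        rw [this]
        exact hu'm'.symm
    have hlen3 : g'.length = g.length + 2 := by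
      simp [g']
    rcases hlen' with h | h
    · exact hE1 u hu u' hu' hne g' hlink (by omega)
    · rcases hE2 with h2 | h2
      · have := h2' h2
        omega
      · exact h2 u hu u' hu' hne g' hlink (by omega)

/-- **Recursion from an independent exit set.** -/
theorem exit_recursion {k a q r : ℕ} (h : MinCE k a G) (ha : a ≤ k) (hkq : k = q + r) (hq : 4 ≤ q)
    (hrq : r + 1 ≤ q) (hrr : q + r < r * r)
    (hmax : ∀ K : Finset V, (∀ x ∈ K, ∀ y ∈ K, x ≠ y → G.Adj x y) → K.card ≤ q)
    (X Y : Finset V) (hX : X.card ≤ k) (hYI : Indep G Y) (hYc : Y.card = q)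
    {ℓ₁ ℓ₂ : ℕ} (h1 : 2 ≤ ℓ₁) (h1q : ℓ₁ ≤ q) (hE1 : Excl G (X ∪ Y) Y ℓ₁)
    (hE1' : ℓ₁ = 2 ∨ Excl G (X ∪ Y) Y (ℓ₁ + 1))
    (h2 : 2 ≤ ℓ₂) (h2q : ℓ₂ ≤ q) (hE2 : Excl G (X ∪ Y) Y (ℓ₂ + 2))
    (hE2' : ℓ₂ = 2 ∨ Excl G (X ∪ Y) Y (ℓ₂ + 3)) : False := by
  classical
  set B := X ∪ Y with hB
  have hYB : Y ⊆ B := Finset.subset_union_right
  have hBcard : B.card ≤ k + q := by
    have h3 : B.card ≤ X.card + Y.card := Finset.card_union_le X Y
    omega
  set L1 := exL1 G B Y with hL1
  set L2 := exL2 G B Y with hL2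
  have hYne : Y.Nonempty := by
    rw [← Finset.card_pos]; omega
  -- (H) on `Y`
  have hH1 : k * q + 1 ≤ B.card + L1.card := by
    have h3 := h.card_closedNbhd (S := Y) (fun x hx y hy hxy => hYI x hx y hy hxy) hYne
    rw [hYc] at h3
    refine h3.trans ((Finset.card_le_card ?_).trans (Finset.card_union_le B L1))
    intro x hx
    by_cases hxB : x ∈ B
    · exact Finset.mem_union_left _ hxB
    rcases mem_closedNbhd.1 hx with hx | ⟨y, hy, hadj⟩
    · exact absurd (hYB hx) hxB
    · exact Finset.mem_union_right _ (mem_exL1.2 ⟨hxB, y, hy, hadj⟩)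
  have hL1ne : L1.Nonempty := by
    rw [← Finset.card_pos]
    by_contra hcon
    have h0 : L1.card = 0 := by omega
    rw [h0] at hH1
    have : k * 4 ≤ k * q := Nat.mul_le_mul_left _ hq
    omega
  -- Lemma A on `L₁`
  obtain ⟨T1, hT1s, hT1i, hT1c⟩ := lemmaAB (G := G) (c := q - 1) (e := 0) (w := q - 1) (by omega) (by omega)
    (by omega) L1 hL1ne ⟨fun K hK hcl => by
      have := clique_L1 h1 h1q hE1 hmax K hK hcl hYB
      omega, fun x p hp hs => by
      by_contra hcon
      exact chord_L1 h.noCycle (by omega) h1 hE1 hE1' p hp hs (by omega) (by omega)⟩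
  -- Lemma A on `L₂`
  obtain ⟨T2, hT2s, hT2i, hT2c⟩ : ∃ T2, T2 ⊆ L2 ∧ Indep G T2 ∧ L2.card ≤ q * T2.card := by
    by_cases hne : L2.Nonempty
    · obtain ⟨T2, h3, h4, h5⟩ := lemmaAB (G := G) (c := q) (e := 0) (w := q) (by omega) (by omega)
        (by omega) L2 hne ⟨fun K hK hcl => hmax K hcl, fun x p hp hs => by
          by_contra hcon
          exact chord_L2 h.noCycle (by omega) hYB h2 hE2 hE2' p hp hs (by omega) (by omega)⟩
      exact ⟨T2, h3, h4, by omega⟩
    · rw [Finset.not_nonempty_iff_eq_empty] at hne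
      exact ⟨∅, by simp, by simp [Indep], by simp [hne]⟩
  -- `Y ∪ T2` is independent
  have hT2card : T2.card ≤ r := by
    have hdisj : Disjoint Y T2 := by
      rw [Finset.disjoint_left]
      intro x hx hx'
      exact (mem_exL2.1 (hT2s hx')).1 (hYB hx)
    have hind : G.IsIndepSet ((Y ∪ T2 : Finset V) : Set V) := by
      intro x hx y hy hxy
      have hx' := Finset.mem_coe.1 hx
      have hy' := Finset.mem_coe.1 hy
      rcases Finset.mem_union.1 hx' with hx2 | hx2 <;> rcases Finset.mem_union.1 hy' with hy2 | hy2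
      · exact hYI x hx2 y hy2 hxy
      · intro hadj
        have := mem_exL2.1 (hT2s hy2)
        exact this.2.1 (mem_exL1.2 ⟨this.1, x, hx2, hadj⟩)
      · intro hadj
        have := mem_exL2.1 (hT2s hx2)
        exact this.2.1 (mem_exL1.2 ⟨this.1, y, hy2, hadj.symm⟩)
      · exact hT2i x hx2 y hy2 hxy
    have := h.noIndep _ hind
    rw [Finset.card_union_of_disjoint hdisj] at this
    omega
  -- arithmetic: `|T1| ≥ k - 1`
  obtain ⟨q', rfl⟩ : ∃ q', q = q' + 1 := ⟨q - 1, by omega⟩
  simp only [Nat.add_sub_cancel, Nat.add_zero] at hT1c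
  have hT1k : k ≤ 1 + T1.card := by
    by_contra hcon
    have h3 : T1.card + 2 ≤ k := by omega
    have h4 : q' * (T1.card + 2) ≤ q' * k := Nat.mul_le_mul_left _ h3
    have h5 : k * (q' + 1) = q' * k + k := by ring
    have h6 : q' * (T1.card + 2) = q' * T1.card + 2 * q' := by ring
    omega
  have hT1ne : T1.Nonempty := by
    rw [← Finset.card_pos]; omega
  -- (H) on `T1`
  have hH2 : k * T1.card + 1 ≤ B.card + L1.card + L2.card := by
    have h3 := h.card_closedNbhd (S := T1) (fun x hx y hy hxy => hT1i x hx y hy hxy) hT1ne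
    refine h3.trans ?_
    have hsub : closedNbhd G T1 ⊆ (B ∪ L1) ∪ L2 := by
      intro x hx
      by_cases hxB : x ∈ B
      · exact Finset.mem_union_left _ (Finset.mem_union_left _ hxB)
      by_cases hxL : x ∈ L1
      · exact Finset.mem_union_left _ (Finset.mem_union_right _ hxL)
      refine Finset.mem_union_right _ ?_
      rcases mem_closedNbhd.1 hx with hx | ⟨y, hy, hadj⟩
      · exact absurd (hT1s hx) hxL
      · exact mem_exL2.2 ⟨hxB, hxL, y, hT1s hy, hadj⟩
    have h4 := Finset.card_le_card hsub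
    have h5 := Finset.card_union_le (B ∪ L1) L2
    have h6 := Finset.card_union_le B L1
    omega
  -- final count
  have hL2b : L2.card ≤ (q' + 1) * r := hT2c.trans (Nat.mul_le_mul_left _ hT2card)
  have hfin : k * T1.card + 1 ≤ (k + (q' + 1)) + q' * T1.card + (q' + 1) * r := by omega
  have hk' : k * T1.card = (q' + (r + 1)) * T1.card := by
    congr 1; omega
  have h7 : (r + 1) * T1.card + 1 ≤ k + (q' + 1) + (q' + 1) * r := by
    have : (q' + (r + 1)) * T1.card = q' * T1.card + (r + 1) * T1.card := by ring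
    omega
  have h8 : (r + 1) * k ≤ (r + 1) * (1 + T1.card) := Nat.mul_le_mul_left _ hT1k
  subst hkq
  nlinarith

end Layers

end Crest.Agent.CycleRamsey
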